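import Vale.Agent.Lib.P154.ST.Prog

/-! Generated certificates. -/

namespace Vale.Agent.Lib.P154

namespace ST

open Tr in
theorem cc77 : chk TK3f gsf (s1 (s0 (s1 (s0 l l) (s1 l (s0 l l))) (s1 (s0 l l) (s1 (s0 l l) (s0 l l)))) (s1 (s0 (s1 (s0 l l) (s0 (s2 l l) (s0 l l))) (s1 (s0 (s2 l l) (s0 l l)) (s0 (s1 l l) (s1 l (s2 l l))))) (s0 (s1 (s0 (s1 l l) (s1 l l)) (s0 (s1 (s2 l l) (s0 l l)) (s1 (s2 l l) (s0 l l)))) (s1 (s0 (s1 l (s2 l l)) (s1 (s2 l l) (s0 l l))) (s0 (s1 (s0 l l) (s0 l (s2 l l))) (s1 (s0 l (s2 l l)) (s0 (s2 l l) (s1 l l))))))))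
    (Bx.mk 281475219980288 8388608 281475144482816 33554432 281475043819520 67108864 281474976710656 0) = true := by
  decide +kernel

open Tr in
theorem cc78 : chk TK3f gsf (s1 (s1 (s0 (s1 (s0 (s1 (s0 (s2 l l) (s2 l l)) (s0 (s1 l l) (s1 l l))) (s1 (s0 (s2 l l) (s2 l l)) (s0 (s1 l l) (s1 l l)))) (s1 (s0 (d 1) (s1 (s0 l l) (d 1))) (d 1))) (s1 (s0 (s1 (s0 (s2 l l) (s0 l l)) (s0 (s1 l l) (s1 l l))) (s1 (s0 (s1 l l) (s1 l (s2 l l))) (s0 (s1 l (s2 l l)) (s1 (s2 l l) (s2 l l))))) (s0 (s1 (s0 (s1 l (d 1)) (s1 l (s1 l (d 1)))) (d 1)) (s1 (s0 (s1 (s2 l l) (s0 l l)) (s1 (s0 l l) (s0 l (s2 l l)))) (s1 (s0 (d 1) (s1 (s0 (d 1) l) (d 1))) (d 1)))))) (d 1)) (d 1))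
    (Bx.mk 281475219980288 8388608 281475211591680 33554432 281475043819520 67108864 281474976710656 0) = true := by
  decide +kernel

open Tr in
theorem cc79 : chk TK3f gsf (s1 (s1 (s1 l (s0 l l)) (s1 (s0 l l) (s0 l (s2 l l)))) (s1 (s1 (s0 (s0 l l) (s1 l (s2 l l))) (s0 (s1 (s2 l l) (s0 l l)) (s1 (s2 l l) (s0 l l)))) (s1 (s0 (s1 (s0 l l) (s0 (s2 l l) (s2 l l))) (s1 (s0 (s2 l l) (s2 l l)) (s0 (s2 l l) (s1 l l)))) (s0 (s1 (s0 (s2 l l) (s1 l l)) (s0 (s1 l (s2 l l)) (s2 l (s0 l l)))) (s1 (s0 (s1 l (s2 l l)) (s2 l (s0 l l))) (s0 (s2 l (s1 l l)) (s1 (s2 l l) (s2 l l))))))))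
    (Bx.mk 281475232563200 4194304 281475144482816 33554432 281475043819520 67108864 281474976710656 0) = true := by
  decide +kernel

open Tr in
theorem cc80 : chk TK3f gsf (s1 (s0 (s0 l l) (s0 l l)) (s0 (s1 l (s2 l l)) (s1 l (s0 l l))))
    (Bx.mk 281475240951808 4194304 281475127705600 16777216 281475043819520 67108864 281474976710656 0) = true := by
  decide +kernel

open Tr in
theorem cc81 : chk TK3f gsf (s0 (s1 (s1 l (s2 l l)) (s1 (s0 l l) (s0 l (s2 l l)))) (s1 (s0 (s2 l l) (s2 l l)) (s0 (s1 l (s2 l l)) (s1 l (s2 l l)))))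
    (Bx.mk 281475240951808 4194304 281475152871424 8388608 281475043819520 67108864 281474976710656 0) = true := by
  decide +kernel

open Tr in
theorem cc82 : chk TK3f gsf (s1 (s0 (s1 (s0 (s2 l l) (s2 l l)) (s0 (s1 l (s2 l l)) (s2 l (s2 l l)))) (s1 (s0 (s2 l l) (s2 l l)) (s0 (s2 l (s2 l l)) (s2 l (s2 l l))))) (s0 (s1 (s0 (s2 l (s0 l l)) (s2 l (s1 l l))) (s0 (s2 (s2 l l) (s1 l (s2 l l))) (s2 (s2 l l) (s1 (s2 l l) (s2 l l))))) (s1 (s0 (s2 l (s1 l l)) (s2 l (s1 l l))) (s0 (s2 (s2 l l) (s1 (s2 l l) (s2 l l))) (s2 (s2 l l) (s1 (s2 l l) (s2 l l)))))))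
    (Bx.mk 281475240951808 4194304 281475169648640 8388608 281475043819520 67108864 281474976710656 0) = true := by
  decide +kernel

end ST

end Vale.Agent.Lib.P154
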